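import Vale.Agent.N084.Glue

/-!
Dimension-free stability of the extension theorem for spheres of B-convex spaces.
-/

namespace Vale.Agent.N084

open Metric

universe u v

/-- The sign attached to a Boolean. -/
def sg (b : Bool) : ℝ := if b then 1 else -1

/-- The contraction constant. -/
noncomputable def kap (N : ℕ) (η : ℝ) : ℝ :=
  max (1 - η / (2 * N * 2 ^ N)) (4 * N / (4 * N + 1))

theorem kap_pos {N : ℕ} (hN : 0 < N) (η : ℝ) : 0 < kap N η :=
  lt_max_of_lt_right (by positivity)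

theorem kap_lt_one {N : ℕ} (hN : 0 < N) {η : ℝ} (hη : 0 < η) : kap N η < 1 := by
  refine max_lt ?_ ?_
  · have : 0 < η / (2 * N * 2 ^ N) := by positivity
    linarith
  · rw [div_lt_one (by positivity)]
    linarith

theorem marg {Ω : Type} [Fintype Ω] {N : ℕ} {Z : Type*} [AddCommGroup Z] [Module ℝ Z] (w : Ω → ℝ)
    (hw : ∑ a, w a = 1) (g : Ω → Z) (b : Fin N) :
    ∑ ω : Fin N → Ω, (∏ i, w (ω i)) • g (ω b) = ∑ a, w a • g a := by
  classical
  have key : ∀ a : Ω, ∑ ω : Fin N → Ω, (∏ i, w (ω i)) * (if ω b = a then 1 else 0) = w a := by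
    intro a
    have h := Finset.prod_univ_sum (fun _ : Fin N => (Finset.univ : Finset Ω))
      fun i j => w j * (if i = b then (if j = a then (1 : ℝ) else 0) else 1)
    rw [Fintype.piFinset_univ] at h
    have h1 : ∀ ω : Fin N → Ω,
        ∏ i, w (ω i) * (if i = b then (if ω i = a then (1 : ℝ) else 0) else 1) =
          (∏ i, w (ω i)) * (if ω b = a then 1 else 0) := fun ω => by
      rw [Finset.prod_mul_distrib, Finset.prod_ite_eq']
      simp
    rw [Finset.sum_congr rfl fun ω _ => h1 ω] at h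
    rw [← h, Finset.prod_eq_single b]
    · simp
    · intro i _ hi
      simpa [hi] using hw
    · simp
  calc ∑ ω : Fin N → Ω, (∏ i, w (ω i)) • g (ω b)
      = ∑ ω : Fin N → Ω, ∑ a, ((∏ i, w (ω i)) * (if ω b = a then 1 else 0)) • g a := by
        refine Finset.sum_congr rfl fun ω _ => ?_
        rw [Finset.sum_eq_single (ω b)]
        · simp
        · intro a _ ha
          simp [Ne.symm ha]
        · simp
    _ = ∑ a, w a • g a := by
        rw [Finset.sum_comm]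
        exact Finset.sum_congr rfl fun a _ => by rw [← Finset.sum_smul, key]

section

variable {X : Type u} [NormedAddCommGroup X] [NormedSpace ℝ X]
  {Y : Type v} [NormedAddCommGroup Y] [NormedSpace ℝ Y]

/-- Beck's convexity condition. -/
def Beck (X : Type u) [NormedAddCommGroup X] [NormedSpace ℝ X] (N : ℕ) (η : ℝ) : Prop :=
  ∀ x : Fin N → X, (∀ i, ‖x i‖ ≤ 1) →
    ∃ s : Fin N → ℝ, (∀ i, s i = 1 ∨ s i = -1) ∧ ‖∑ i, s i • x i‖ ≤ N - η

theorem Beck.pos {N : ℕ} {η : ℝ} (h : Beck X N η) (hη : 0 < η) : 0 < N := by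
  rcases Nat.eq_zero_or_pos N with rfl | hN
  · obtain ⟨s, -, hs⟩ := h (fun _ => 0) (fun _ => by simp)
    simp at hs
    linarith
  · exact hN

theorem norm_sg_sum_le {N : ℕ} (σ : Fin N → Bool) (y : Fin N → X) :
    ‖∑ i, sg (σ i) • y i‖ ≤ ∑ i, ‖y i‖ := by
  refine (norm_sum_le _ _).trans (le_of_eq (Finset.sum_congr rfl fun i _ => ?_))
  cases σ i <;> simp [sg]

theorem Beck.exists_sign {N : ℕ} {η : ℝ} (h : Beck X N η) (y : Fin N → X) {μ : ℝ} (hμ : 0 ≤ μ)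
    (hy : ∀ i, μ ≤ ‖y i‖) : ∃ σ : Fin N → Bool, ‖∑ i, sg (σ i) • y i‖ ≤ ∑ i, ‖y i‖ - η * μ := by
  classical
  let x : Fin N → X := fun i => ‖y i‖⁻¹ • y i
  have hx : ∀ i, ‖x i‖ ≤ 1 := fun i => by
    rw [norm_smul, norm_inv, norm_norm]
    exact inv_mul_le_one_of_le₀ le_rfl (norm_nonneg _)
  have hyx : ∀ i, y i = (‖y i‖ - μ) • x i + μ • x i := fun i => by
    rw [← add_smul, sub_add_cancel, smul_smul]
    rcases eq_or_ne (y i) 0 with h0 | h0
    · simp [h0]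
    · rw [mul_inv_cancel₀ (norm_ne_zero_iff.mpr h0), one_smul]
  obtain ⟨s, hs, hn⟩ := h x hx
  refine ⟨fun i => decide (s i = 1), ?_⟩
  have hsg : ∀ i, sg (decide (s i = 1)) = s i := fun i => by
    rcases hs i with h1 | h1
    · simp [sg, h1]
    · have : ¬ ((-1 : ℝ) = 1) := by norm_num
      simp [sg, h1, this]
  have e : ∑ i, sg (decide (s i = 1)) • y i =
      ∑ i, sg (decide (s i = 1)) • (‖y i‖ - μ) • x i + μ • ∑ i, s i • x i := by
    rw [Finset.smul_sum, ← Finset.sum_add_distrib]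
    refine Finset.sum_congr rfl fun i _ => ?_
    rw [smul_comm μ, hsg, ← smul_add, ← hyx]
  rw [e]
  refine (norm_add_le _ _).trans ?_
  have h1 : ‖∑ i, sg (decide (s i = 1)) • (‖y i‖ - μ) • x i‖ ≤ ∑ i, (‖y i‖ - μ) := by
    refine (norm_sg_sum_le _ _).trans (Finset.sum_le_sum fun i _ => ?_)
    rw [norm_smul, Real.norm_eq_abs, abs_of_nonneg (sub_nonneg.mpr (hy i))]
    exact mul_le_of_le_one_right (sub_nonneg.mpr (hy i)) (hx i)
  rw [Finset.sum_sub_distrib] at h1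
  simp only [Finset.sum_const, Finset.card_univ, Fintype.card_fin, nsmul_eq_mul] at h1
  rw [norm_smul, Real.norm_eq_abs, abs_of_nonneg hμ]
  nlinarith [mul_le_mul_of_nonneg_left hn hμ]

theorem Beck.type_two {N : ℕ} {η : ℝ} (h : Beck X N η) (hη : 0 < η) (y : Fin N → X) :
    ∑ σ : Fin N → Bool, ‖∑ i, sg (σ i) • y i‖ ^ 2 ≤ 2 ^ N * (kap N η * N * ∑ i, ‖y i‖ ^ 2) := by
  classical
  have hN : (0 : ℝ) < N := by exact_mod_cast h.pos hη
  set A := ∑ i, ‖y i‖ with hA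
  set B := ∑ i, ‖y i‖ ^ 2 with hB
  have A0 : 0 ≤ A := Finset.sum_nonneg fun i _ => norm_nonneg _
  have B0 : 0 ≤ B := Finset.sum_nonneg fun i _ => sq_nonneg _
  have hsq : ∀ σ : Fin N → Bool, ‖∑ i, sg (σ i) • y i‖ ^ 2 ≤ A ^ 2 := fun σ =>
    pow_le_pow_left₀ (norm_nonneg _) (norm_sg_sum_le σ y) 2
  have hvar : ∑ i, (‖y i‖ - A / N) ^ 2 = B - A ^ 2 / N := by
    have : ∀ i, (‖y i‖ - A / N) ^ 2 = ‖y i‖ ^ 2 - 2 * (A / N) * ‖y i‖ + (A / N) ^ 2 := fun i => by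
      ring
    simp only [this, Finset.sum_add_distrib, Finset.sum_sub_distrib, ← Finset.mul_sum,
      Finset.sum_const, Finset.card_univ, Fintype.card_fin, nsmul_eq_mul, ← hA, ← hB]
    field_simp
    ring
  have hcard : (Finset.univ : Finset (Fin N → Bool)).card = 2 ^ N := by simp
  have p2 : (0 : ℝ) < 2 ^ N := by positivity
  by_cases hc : ∀ i, A / N / 2 ≤ ‖y i‖
  · obtain ⟨σ₀, hσ₀⟩ := h.exists_sign y (by positivity) hc
    have hAB : A ^ 2 ≤ N * B := by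
      have : 0 ≤ B - A ^ 2 / N := hvar ▸ Finset.sum_nonneg fun i _ => sq_nonneg _
      rw [sub_nonneg, div_le_iff₀ hN] at this
      linarith
    have h1 : ‖∑ i, sg (σ₀ i) • y i‖ ^ 2 ≤ A ^ 2 - η * (A / N / 2) * A := by
      have := norm_sg_sum_le σ₀ y
      have n0 := norm_nonneg (∑ i, sg (σ₀ i) • y i)
      nlinarith
    have h2 : ∑ σ : Fin N → Bool, ‖∑ i, sg (σ i) • y i‖ ^ 2 ≤
        ∑ σ : Fin N → Bool, (A ^ 2 - if σ = σ₀ then η * (A / N / 2) * A else 0) := by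
      refine Finset.sum_le_sum fun σ _ => ?_
      split_ifs with hσ
      · rw [hσ]
        exact h1
      · simpa using hsq σ
    rw [Finset.sum_sub_distrib, Finset.sum_const, hcard, Finset.sum_ite_eq'] at h2
    simp only [Finset.mem_univ, if_true, nsmul_eq_mul, Nat.cast_pow, Nat.cast_ofNat] at h2
    have h3 : 2 ^ N * A ^ 2 - η * (A / N / 2) * A = 2 ^ N * ((1 - η / (2 * N * 2 ^ N)) * A ^ 2) := by
      field_simp
    rw [h3] at h2
    refine h2.trans (mul_le_mul_of_nonneg_left ?_ p2.le)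
    have h4 : (1 - η / (2 * N * 2 ^ N)) * A ^ 2 ≤ kap N η * A ^ 2 :=
      mul_le_mul_of_nonneg_right (le_max_left _ _) (sq_nonneg _)
    have h5 := mul_le_mul_of_nonneg_left hAB (kap_pos (h.pos hη) η).le
    linarith
  · push Not at hc
    obtain ⟨c, hc⟩ := hc
    have h1 : (‖y c‖ - A / N) ^ 2 ≤ B - A ^ 2 / N :=
      hvar ▸ Finset.single_le_sum (f := fun i => (‖y i‖ - A / N) ^ 2)
        (fun i _ => sq_nonneg _) (Finset.mem_univ c)
    have a0 : 0 ≤ A / N := by positivity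
    have h2 : (A / N / 2) ^ 2 ≤ (‖y c‖ - A / N) ^ 2 := by nlinarith
    have h3 : A ^ 2 ≤ 4 * N / (4 * N + 1) * N * B := by
      have h4 : (A / N / 2) ^ 2 + A ^ 2 / N = A ^ 2 * ((4 * N + 1) / (4 * N * N)) := by
        field_simp
        ring
      have h5 : A ^ 2 * ((4 * N + 1) / (4 * N * N)) ≤ B := by linarith
      have h6 : A ^ 2 = 4 * N / (4 * N + 1) * N * (A ^ 2 * ((4 * N + 1) / (4 * N * N))) := by
        field_simp
      rw [h6]
      exact mul_le_mul_of_nonneg_left h5 (by positivity)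
    have h7 : ∑ σ : Fin N → Bool, ‖∑ i, sg (σ i) • y i‖ ^ 2 ≤ ∑ _σ : Fin N → Bool, A ^ 2 :=
      Finset.sum_le_sum fun σ _ => hsq σ
    rw [Finset.sum_const, hcard] at h7
    simp only [nsmul_eq_mul, Nat.cast_pow, Nat.cast_ofNat] at h7
    refine h7.trans (mul_le_mul_of_nonneg_left (h3.trans ?_) p2.le)
    exact mul_le_mul_of_nonneg_right (mul_le_mul_of_nonneg_right (le_max_right _ _) hN.le) B0

/-- The symmetrised second moment of a random vector. -/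
def Var {Ω : Type} [Fintype Ω] (w : Ω → ℝ) (ξ : Ω → X) : ℝ :=
  ∑ p : Ω × Ω, w p.1 * w p.2 * ‖ξ p.1 - ξ p.2‖ ^ 2

theorem sum_pair {Ω : Type} [Fintype Ω] {w : Ω → ℝ} (hw : ∑ a, w a = 1) :
    ∑ p : Ω × Ω, w p.1 * w p.2 = 1 := by
  rw [Fintype.sum_prod_type]
  simp [← Finset.mul_sum, hw]

theorem Beck.var_le {N : ℕ} {η : ℝ} (h : Beck X N η) (hη : 0 < η) {Ω : Type} [Fintype Ω]
    {w : Ω → ℝ} (hw0 : ∀ a, 0 ≤ w a) (hw : ∑ a, w a = 1) (ξ : Ω → X) :
    Var (fun ω : Fin N → Ω => ∏ i, w (ω i)) (fun ω => ∑ i, ξ (ω i)) ≤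
      kap N η * N ^ 2 * Var w ξ := by
  let v : Ω × Ω → ℝ := fun p => w p.1 * w p.2
  let d : Ω × Ω → X := fun p => ξ p.1 - ξ p.2
  have h1 : Var (fun ω : Fin N → Ω => ∏ i, w (ω i)) (fun ω => ∑ i, ξ (ω i)) =
      ∑ l : Fin N → Ω × Ω, (∏ i, v (l i)) * ‖∑ i, d (l i)‖ ^ 2 := by
    refine (Fintype.sum_equiv (Equiv.arrowProdEquivProdArrow (Fin N) (fun _ => Ω) fun _ => Ω)
      _ _ fun l => ?_).symm
    simp [Equiv.arrowProdEquivProdArrow, v, d, Finset.prod_mul_distrib, Finset.sum_sub_distrib]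
  have h2 : ∀ σ : Fin N → Bool, ∑ l : Fin N → Ω × Ω, (∏ i, v (l i)) * ‖∑ i, d (l i)‖ ^ 2 =
      ∑ l : Fin N → Ω × Ω, (∏ i, v (l i)) * ‖∑ i, sg (σ i) • d (l i)‖ ^ 2 := by
    intro σ
    let τ : (Fin N → Ω × Ω) → Fin N → Ω × Ω := fun l i => if σ i then l i else (l i).swap
    have hτ : Function.Involutive τ := fun l => by
      funext i
      cases hi : σ i <;> simp [τ, hi]
    refine (Fintype.sum_equiv hτ.toPerm _ _ fun l => ?_).symm
    have e1 : ∀ i, v (τ l i) = v (l i) := fun i => by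
      cases hi : σ i <;> simp [τ, hi, v, mul_comm]
    have e2 : ∀ i, d (τ l i) = sg (σ i) • d (l i) := fun i => by
      cases hi : σ i <;> simp [τ, hi, d, sg]
    simp only [Function.Involutive.coe_toPerm, e1, e2]
  have p2 : (0 : ℝ) < 2 ^ N := by positivity
  have hcard : (Finset.univ : Finset (Fin N → Bool)).card = 2 ^ N := by simp
  have h3 : 2 ^ N * ∑ l : Fin N → Ω × Ω, (∏ i, v (l i)) * ‖∑ i, d (l i)‖ ^ 2 =
      ∑ l : Fin N → Ω × Ω, (∏ i, v (l i)) * ∑ σ : Fin N → Bool, ‖∑ i, sg (σ i) • d (l i)‖ ^ 2 := by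
    simp only [Finset.mul_sum (s := (Finset.univ : Finset (Fin N → Bool)))]
    rw [Finset.sum_comm, ← Finset.sum_congr rfl fun σ _ => h2 σ, Finset.sum_const, hcard]
    simp
  have h4 : ∑ l : Fin N → Ω × Ω, (∏ i, v (l i)) * ∑ i, ‖d (l i)‖ ^ 2 = N * Var w ξ := by
    simp only [Finset.mul_sum (s := (Finset.univ : Finset (Fin N)))]
    rw [Finset.sum_comm]
    have : ∀ b : Fin N, ∑ l : Fin N → Ω × Ω, (∏ i, v (l i)) * ‖d (l b)‖ ^ 2 = Var w ξ := fun b =>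
      marg v (sum_pair hw) (fun p => ‖d p‖ ^ 2) b
    simp [this]
  rw [h1]
  refine le_of_mul_le_mul_left ?_ p2
  rw [h3]
  calc ∑ l : Fin N → Ω × Ω, (∏ i, v (l i)) * ∑ σ : Fin N → Bool, ‖∑ i, sg (σ i) • d (l i)‖ ^ 2
      ≤ ∑ l : Fin N → Ω × Ω, (∏ i, v (l i)) * (2 ^ N * (kap N η * N * ∑ i, ‖d (l i)‖ ^ 2)) :=
        Finset.sum_le_sum fun l _ => mul_le_mul_of_nonneg_left (h.type_two hη _)
          (Finset.prod_nonneg fun i _ => mul_nonneg (hw0 _) (hw0 _))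
    _ = 2 ^ N * (kap N η * N) * ∑ l : Fin N → Ω × Ω, (∏ i, v (l i)) * ∑ i, ‖d (l i)‖ ^ 2 := by
        rw [Finset.mul_sum]
        exact Finset.sum_congr rfl fun l _ => by ring
    _ = _ := by rw [h4]; ring

theorem mean_norm_le {Ω : Type} [Fintype Ω] {w : Ω → ℝ} (hw0 : ∀ a, 0 ≤ w a) (hw : ∑ a, w a = 1)
    {ξ : Ω → X} (h0 : ∑ a, w a • ξ a = 0) {r : ℝ} (hr : 0 < r) (hV : Var w ξ ≤ r ^ 2) :
    ∑ a, w a * ‖ξ a‖ ≤ r := by
  have h1 : ∀ a, ‖ξ a‖ ≤ ∑ b, w b * ‖ξ a - ξ b‖ := fun a => by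
    have : ξ a = ∑ b, w b • (ξ a - ξ b) := by
      simp only [smul_sub, Finset.sum_sub_distrib, ← Finset.sum_smul, hw, h0, one_smul, sub_zero]
    calc ‖ξ a‖ = ‖∑ b, w b • (ξ a - ξ b)‖ := by rw [← this]
      _ ≤ _ := (norm_sum_le _ _).trans (le_of_eq (Finset.sum_congr rfl fun b _ => by
          rw [norm_smul, Real.norm_eq_abs, abs_of_nonneg (hw0 b)]))
  have h2 : ∑ a, w a * ‖ξ a‖ ≤ ∑ p : Ω × Ω, w p.1 * w p.2 * ‖ξ p.1 - ξ p.2‖ := by
    rw [Fintype.sum_prod_type]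
    refine Finset.sum_le_sum fun a _ => (mul_le_mul_of_nonneg_left (h1 a) (hw0 a)).trans
      (le_of_eq ?_)
    rw [Finset.mul_sum]
    exact Finset.sum_congr rfl fun b _ => by ring
  have h3 : 2 * r * ∑ p : Ω × Ω, w p.1 * w p.2 * ‖ξ p.1 - ξ p.2‖ ≤
      Var w ξ + r ^ 2 * ∑ p : Ω × Ω, w p.1 * w p.2 := by
    rw [Var, Finset.mul_sum, Finset.mul_sum, ← Finset.sum_add_distrib]
    refine Finset.sum_le_sum fun p _ => ?_
    nlinarith [mul_nonneg (mul_nonneg (hw0 p.1) (hw0 p.2)) (sq_nonneg (‖ξ p.1 - ξ p.2‖ - r))]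
  rw [sum_pair hw] at h3
  nlinarith

/-- The mean of `F` along centred random vectors is at most `K` times their spread. -/
def Bd (F : X → Y) (K : ℝ) : Prop :=
  ∀ (Ω : Type) [Fintype Ω] (w : Ω → ℝ) (ξ : Ω → X) (r : ℝ), (∀ a, 0 ≤ w a) → ∑ a, w a = 1 →
    ∑ a, w a • ξ a = 0 → 0 < r → Var w ξ ≤ r ^ 2 → ‖∑ a, w a • F (ξ a)‖ ≤ K * r

theorem bd_one {F : X → Y} (hF : ∀ x, ‖F x‖ = ‖x‖) : Bd F 1 := by
  intro Ω _ w ξ r hw0 hw h0 hr hV
  rw [one_mul]
  refine (norm_sum_le _ _).trans (le_trans (le_of_eq ?_) (mean_norm_le hw0 hw h0 hr hV))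
  exact Finset.sum_congr rfl fun a _ => by
    rw [norm_smul, hF, Real.norm_eq_abs, abs_of_nonneg (hw0 a)]

theorem Bd.step {N : ℕ} {η : ℝ} (h : Beck X N η) (hη : 0 < η) {F : X → Y} {ε K : ℝ} (hε : 0 ≤ ε)
    (hadd : ∀ y : Fin N → X, ‖∑ i, F (y i) - F (∑ i, y i)‖ ≤ ε * ∑ i, ‖y i‖) (hK : Bd F K) :
    Bd F (ε + √(kap N η) * K) := by
  intro Ω _ w ξ r hw0 hw h0 hr hV
  have hN : (0 : ℝ) < N := by exact_mod_cast h.pos hη
  have hk := kap_pos (h.pos hη) η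
  have W0 : ∀ ω : Fin N → Ω, 0 ≤ ∏ i, w (ω i) := fun ω => Finset.prod_nonneg fun i _ => hw0 _
  have h1 := hK (Fin N → Ω) (fun ω => ∏ i, w (ω i)) (fun ω => ∑ i, ξ (ω i)) (√(kap N η) * N * r)
    W0 (by rw [← Fintype.sum_pow, hw, one_pow])
    (by
      simp only [Finset.smul_sum]
      rw [Finset.sum_comm]
      exact Finset.sum_eq_zero fun b _ => (marg w hw ξ b).trans h0)
    (by positivity)
    ((h.var_le hη hw0 hw ξ).trans (by
      rw [mul_pow, mul_pow, Real.sq_sqrt hk.le]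
      exact mul_le_mul_of_nonneg_left hV (by positivity)))
  have h2 : (N : ℝ) • ∑ a, w a • F (ξ a) =
      ∑ ω : Fin N → Ω, (∏ i, w (ω i)) • F (∑ i, ξ (ω i)) +
        ∑ ω : Fin N → Ω, (∏ i, w (ω i)) • (∑ i, F (ξ (ω i)) - F (∑ i, ξ (ω i))) := by
    rw [← Finset.sum_add_distrib]
    simp only [← smul_add, add_sub_cancel, Finset.smul_sum (s := (Finset.univ : Finset (Fin N)))]
    rw [Finset.sum_comm, Finset.sum_congr rfl fun b _ => marg w hw (fun a => F (ξ a)) b,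
      Finset.sum_const, Finset.card_univ, Fintype.card_fin, Nat.cast_smul_eq_nsmul]
  have h3 : ‖∑ ω : Fin N → Ω, (∏ i, w (ω i)) • (∑ i, F (ξ (ω i)) - F (∑ i, ξ (ω i)))‖ ≤
      ε * (N * r) := by
    calc _ ≤ ∑ ω : Fin N → Ω, (∏ i, w (ω i)) * (ε * ∑ i, ‖ξ (ω i)‖) := by
          refine (norm_sum_le _ _).trans (Finset.sum_le_sum fun ω _ => ?_)
          rw [norm_smul, Real.norm_eq_abs, abs_of_nonneg (W0 ω)]
          exact mul_le_mul_of_nonneg_left (hadd _) (W0 ω)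
      _ = ε * ∑ b : Fin N, ∑ ω : Fin N → Ω, (∏ i, w (ω i)) • ‖ξ (ω b)‖ := by
          rw [Finset.sum_comm, Finset.mul_sum]
          refine Finset.sum_congr rfl fun ω _ => ?_
          simp only [smul_eq_mul, ← Finset.mul_sum]
          ring
      _ ≤ ε * (N * r) := by
          refine mul_le_mul_of_nonneg_left ?_ hε
          rw [Finset.sum_congr rfl fun b _ => marg w hw (fun a => ‖ξ a‖) b, Finset.sum_const,
            Finset.card_univ, Fintype.card_fin, nsmul_eq_mul]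
          exact mul_le_mul_of_nonneg_left (mean_norm_le hw0 hw h0 hr hV) hN.le
  have h4 : N * ‖∑ a, w a • F (ξ a)‖ ≤ K * (√(kap N η) * N * r) + ε * (N * r) := by
    have := norm_add_le (∑ ω : Fin N → Ω, (∏ i, w (ω i)) • F (∑ i, ξ (ω i)))
      (∑ ω : Fin N → Ω, (∏ i, w (ω i)) • (∑ i, F (ξ (ω i)) - F (∑ i, ξ (ω i))))
    rw [← h2, norm_smul, Real.norm_natCast] at this
    linarith
  refine le_of_mul_le_mul_left ?_ hN
  linarith

theorem Bd.iter {N : ℕ} {η : ℝ} (h : Beck X N η) (hη : 0 < η) {F : X → Y} {ε : ℝ} (hε : 0 ≤ ε)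
    (hF : ∀ x, ‖F x‖ = ‖x‖)
    (hadd : ∀ y : Fin N → X, ‖∑ i, F (y i) - F (∑ i, y i)‖ ≤ ε * ∑ i, ‖y i‖) (k : ℕ) :
    Bd F (√(kap N η) ^ k + k * ε) := by
  have hρ : √(kap N η) ≤ 1 := Real.sqrt_le_one.mpr (kap_lt_one (h.pos hη) hη).le
  induction k with
  | zero => simpa using bd_one hF
  | succ k ih =>
    intro Ω _ w ξ r hw0 hw h0 hr hV
    refine (ih.step h hη hε hadd Ω w ξ r hw0 hw h0 hr hV).trans
      (mul_le_mul_of_nonneg_right ?_ hr.le)
    have : √(kap N η) * (k * ε) ≤ k * ε := mul_le_of_le_one_left (by positivity) hρ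
    push_cast
    rw [pow_succ]
    nlinarith

theorem lin_all {N : ℕ} {η : ℝ} (h : Beck X N η) (hη : 0 < η) {ε : ℝ} (hε : 0 ≤ ε)
    {f : sphere (0 : X) 1 → sphere (0 : Y) 1} (hf : Lin (N + 1) ε f) (k m : ℕ) :
    Lin m (4 * (√(kap N η) ^ k + (2 * k + 1) * ε)) f := by
  classical
  intro x a
  rcases Nat.eq_zero_or_pos m with rfl | hm
  · simp
  obtain ⟨U, hU⟩ : ∃ U : X → sphere (0 : X) 1, ∀ y, ‖y‖ • (U y : X) = y := by
    refine ⟨fun y => if hy : y = 0 then x ⟨0, hm⟩ else ⟨‖y‖⁻¹ • y, ?_⟩, fun y => ?_⟩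
    · rw [mem_sphere_zero_iff_norm, norm_smul, norm_inv, norm_norm,
        inv_mul_cancel₀ (norm_ne_zero_iff.mpr hy)]
    · by_cases hy : y = 0
      · simp [hy]
      · simp only [hy, dif_neg, not_false_eq_true, smul_smul]
        rw [mul_inv_cancel₀ (norm_ne_zero_iff.mpr hy), one_smul]
  let F : X → Y := fun y => ‖y‖ • (f (U y) : Y)
  have hF : ∀ y, ‖F y‖ = ‖y‖ := fun y => by
    rw [norm_smul, norm_norm, mem_sphere_zero_iff_norm.mp (f _).2, mul_one]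
  have hadd : ∀ y : Fin N → X, ‖∑ i, F (y i) - F (∑ i, y i)‖ ≤ 2 * ε * ∑ i, ‖y i‖ := fun y => by
    have h1 := hf.cons (U (∑ i, y i)) (-‖∑ i, y i‖) (fun i => U (y i)) fun i => ‖y i‖
    simp only [neg_smul, hU, neg_add_cancel, norm_zero, sub_zero, abs_norm, abs_neg,
      neg_add_eq_sub] at h1
    have h2 := mul_le_mul_of_nonneg_left (norm_sum_le Finset.univ y) hε
    linarith
  have hB := Bd.iter h hη (by positivity) hF hadd k
  set K := √(kap N η) ^ k + k * (2 * ε) with hK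
  have K0 : 0 ≤ K := by positivity
  have hz : ∀ (n : ℕ) (x : Fin n → sphere (0 : X) 1) (a : Fin n → ℝ), ∑ i, a i • (x i : X) = 0 →
      ‖∑ i, a i • (f (x i) : Y)‖ ≤ 2 * (K + ε) * ∑ i, |a i| := by
    intro n x a h0
    set A := ∑ i, |a i| with hA
    rcases (Finset.sum_nonneg fun i _ => abs_nonneg (a i) : 0 ≤ A).eq_or_lt with hA0 | hA0
    · have : ∀ i, a i = 0 := fun i => abs_eq_zero.mp
        ((Finset.sum_eq_zero_iff_of_nonneg fun i _ => abs_nonneg (a i)).mp hA0.symm i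
          (Finset.mem_univ i))
      simp [this, hA]
    let ξ : Fin n → X := fun i => sg (decide (0 ≤ a i)) • (x i : X)
    have n1 : ∀ i, ‖ξ i‖ = 1 := fun i => by
      by_cases hi : 0 ≤ a i <;> simp [ξ, sg, hi]
    have e1 : ∀ i, |a i| • ξ i = a i • (x i : X) := fun i => by
      rw [smul_smul]
      congr 1
      rcases le_or_gt 0 (a i) with hi | hi
      · simp [sg, hi, abs_of_nonneg hi]
      · simp [sg, hi.not_ge, abs_of_neg hi]
    have hw : ∑ i, A⁻¹ * |a i| = 1 := by rw [← Finset.mul_sum, inv_mul_cancel₀ hA0.ne']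
    have w0 : ∀ i, 0 ≤ A⁻¹ * |a i| := fun i => by positivity
    have h1 := hB (Fin n) (fun i => A⁻¹ * |a i|) ξ 2 w0 hw
      (by simp only [mul_smul, e1, ← Finset.smul_sum, h0, smul_zero]) two_pos
      (by
        calc Var (fun i => A⁻¹ * |a i|) ξ
            ≤ ∑ p : Fin n × Fin n, A⁻¹ * |a p.1| * (A⁻¹ * |a p.2|) * 2 ^ 2 := by
              refine Finset.sum_le_sum fun p _ => mul_le_mul_of_nonneg_left
                (pow_le_pow_left₀ (norm_nonneg _) ?_ 2) (mul_nonneg (w0 _) (w0 _))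
              linarith [norm_sub_le (ξ p.1) (ξ p.2), n1 p.1, n1 p.2]
          _ = 2 ^ 2 := by
              rw [← Finset.sum_mul, sum_pair (w := fun i => A⁻¹ * |a i|) hw, one_mul])
    simp only [mul_smul, ← Finset.smul_sum] at h1
    rw [norm_smul, norm_inv, Real.norm_eq_abs, abs_of_pos hA0, inv_mul_le_iff₀ hA0] at h1
    have h2 : ∀ i, ‖a i • (f (x i) : Y) - |a i| • F (ξ i)‖ ≤ 2 * ε * |a i| := fun i => by
      have hu : (U (ξ i) : X) = ξ i := by simpa [n1] using hU (ξ i)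
      have h3 := (hf.of_le (Nat.succ_le_succ (h.pos hη))).cons (U (ξ i)) (-|a i|)
        (fun _ => x i) fun _ => a i
      simp only [neg_smul, hu, e1, Finset.univ_unique, Finset.sum_singleton, neg_add_cancel,
        norm_zero, sub_zero, abs_norm, abs_neg, abs_abs, neg_add_eq_sub] at h3
      simp only [F, n1, one_smul]
      linarith
    have h4 : ‖∑ i, (a i • (f (x i) : Y) - |a i| • F (ξ i))‖ ≤ 2 * ε * A := by
      rw [hA, Finset.mul_sum]
      exact (norm_sum_le _ _).trans (Finset.sum_le_sum fun i _ => h2 i)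
    rw [Finset.sum_sub_distrib] at h4
    have h5 := norm_add_le (∑ i, a i • (f (x i) : Y) - ∑ i, |a i| • F (ξ i))
      (∑ i, |a i| • F (ξ i))
    rw [sub_add_cancel] at h5
    linarith
  set s := ∑ i, a i • (x i : X) with hs
  have h1 := hz (m + 1) (Fin.cons (U s) x) (Fin.cons (-‖s‖) a)
    (by simp [Fin.sum_univ_succ, hU, ← hs])
  simp only [Fin.sum_univ_succ, Fin.cons_zero, Fin.cons_succ, neg_smul, abs_neg, abs_norm,
    neg_add_eq_sub] at h1
  have h2 : ‖s‖ ≤ ∑ i, |a i| := by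
    refine (norm_sum_le _ _).trans (le_of_eq (Finset.sum_congr rfl fun i _ => ?_))
    rw [norm_smul, mem_sphere_zero_iff_norm.mp (x i).2, mul_one, Real.norm_eq_abs]
  have h3 := abs_norm_sub_norm_le (∑ i, a i • (f (x i) : Y)) (F s)
  rw [hF] at h3
  have h4 := mul_le_mul_of_nonneg_left h2 (show 0 ≤ 2 * (K + ε) by positivity)
  have h5 : 4 * (√(kap N η) ^ k + (2 * k + 1) * ε) = 4 * (K + ε) := by rw [hK]; ring
  rw [h5]
  linarith

end

theorem beck_stability (N : ℕ) (η ε : ℝ) (hη : 0 < η) (hε : 0 < ε) :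
    ∃ δ : ℝ, 0 < δ ∧ ∀ (X : Type u) [NormedAddCommGroup X] [NormedSpace ℝ X]
      (Y : Type v) [NormedAddCommGroup Y] [NormedSpace ℝ Y]
      (f : sphere (0 : X) 1 → sphere (0 : Y) 1), Beck X N η →
      (∀ x x', |dist (f x) (f x') - dist x x'| ≤ δ) → (∀ y, ∃ x, dist (f x) y ≤ δ) →
      ∃ (Z : Type (max u v)) (_ : NormedAddCommGroup Z) (_ : NormedSpace ℝ Z) (I : X →ₗᵢ[ℝ] Z)
        (J : Y →ₗᵢ[ℝ] Z), ∀ x : sphere (0 : X) 1, ‖I x - J (f x)‖ ≤ ε := by
  rcases Nat.eq_zero_or_pos N with rfl | hN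
  · exact ⟨1, one_pos, fun X _ _ Y _ _ f hB => absurd (hB.pos hη) (lt_irrefl 0)⟩
  have hρ : √(kap N η) < 1 := by
    rw [Real.sqrt_lt' one_pos, one_pow]
    exact kap_lt_one hN hη
  obtain ⟨k, hk⟩ := exists_pow_lt_of_lt_one (show 0 < ε / 8 by positivity) hρ
  have hk0 : (0 : ℝ) < 2 * k + 1 := by positivity
  obtain ⟨δ, hδ, h⟩ := Vale.Agent.P084.H406.stability.{u, v} (N + 1) (ε / 8 / (2 * k + 1))
    (by positivity)
  refine ⟨δ, hδ, fun X _ _ Y _ _ f hB h1 h2 => glue_of_lin hε fun m x a => ?_⟩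
  refine (lin_all hB hη (by positivity) (h X Y f h1 h2) k m x a).trans
    (mul_le_mul_of_nonneg_right ?_ (Finset.sum_nonneg fun i _ => abs_nonneg _))
  rw [mul_div_cancel₀ _ hk0.ne']
  linarith

end Vale.Agent.N084
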