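import Mathlib.Analysis.Normed.Operator.ContinuousLinearMap
import Mathlib.Analysis.Normed.Operator.Basic
import Mathlib.Analysis.Normed.Operator.LinearIsometry

/-! The definitions used in the statement on the stability of isometries between unit spheres. -/

namespace Vale.Agent.N084

open Metric

universe u v

/-- The map `f` between unit spheres changes every distance by at most `δ`, and every point of
the target sphere is within `δ` of its range. -/
def AlmostIsometry {X : Type u} [NormedAddCommGroup X] {Y : Type v} [NormedAddCommGroup Y]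
    (δ : ℝ) (f : sphere (0 : X) 1 → sphere (0 : Y) 1) : Prop :=
  (∀ x x', |dist (f x) (f x') - dist x x'| ≤ δ) ∧ ∀ y, ∃ x, dist (f x) y ≤ δ

/-- B-convexity in the sense of Beck, with its constants: any `N` vectors of the unit ball have a
signed sum of norm at most `N - η`. -/
def BConvex (X : Type u) [NormedAddCommGroup X] [NormedSpace ℝ X] (N : ℕ) (η : ℝ) : Prop :=
  ∀ x : Fin N → X, (∀ i, ‖x i‖ ≤ 1) →
    ∃ s : Fin N → ℝ, (∀ i, s i = 1 ∨ s i = -1) ∧ ‖∑ i, s i • x i‖ ≤ N - η

/-- The spaces `X` and `Y` embed linearly and isometrically in one normed space in such a way that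
every point `x` of the unit sphere of `X` is within `ε` of `f x`. -/
def Glued {X : Type u} [NormedAddCommGroup X] [NormedSpace ℝ X]
    {Y : Type v} [NormedAddCommGroup Y] [NormedSpace ℝ Y]
    (ε : ℝ) (f : sphere (0 : X) 1 → sphere (0 : Y) 1) : Prop :=
  ∃ (Z : Type (max u v)) (_ : NormedAddCommGroup Z) (_ : NormedSpace ℝ Z)
    (I : X →ₗᵢ[ℝ] Z) (J : Y →ₗᵢ[ℝ] Z), ∀ x : sphere (0 : X) 1, ‖I x - J (f x)‖ ≤ ε

/-- Every linear homeomorphism `T` of `X` onto `Y` has `‖T‖ ‖T⁻¹‖ ≥ K`. -/
def FarApart (K : ℝ) (X : Type u) [NormedAddCommGroup X] [NormedSpace ℝ X]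
    (Y : Type v) [NormedAddCommGroup Y] [NormedSpace ℝ Y] : Prop :=
  ∀ T : X ≃L[ℝ] Y, K ≤ ‖T.toContinuousLinearMap‖ * ‖T.symm.toContinuousLinearMap‖

end Vale.Agent.N084
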