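import Vale.Agent.P084.H406.Stab

/-!
Almost isometries between unit spheres are close to linear isomorphisms, uniformly over all spaces
of bounded dimension.
-/

namespace Vale.Agent.N084

open Metric Module

universe u v

section

variable {X : Type u} [NormedAddCommGroup X] [NormedSpace ℝ X]
  {Y : Type v} [NormedAddCommGroup Y] [NormedSpace ℝ Y]

/-- The map `f` almost preserves the norms of linear combinations of `m` points. -/
def Lin (m : ℕ) (ε : ℝ) (f : sphere (0 : X) 1 → sphere (0 : Y) 1) : Prop :=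
  ∀ (x : Fin m → sphere (0 : X) 1) (a : Fin m → ℝ),
    |‖∑ i, a i • (f (x i) : Y)‖ - ‖∑ i, a i • (x i : X)‖| ≤ ε * ∑ i, |a i|

theorem Lin.cons {k : ℕ} {ε : ℝ} {f : sphere (0 : X) 1 → sphere (0 : Y) 1} (h : Lin (k + 1) ε f)
    (u : sphere (0 : X) 1) (c : ℝ) (x : Fin k → sphere (0 : X) 1) (a : Fin k → ℝ) :
    |‖c • (f u : Y) + ∑ i, a i • (f (x i) : Y)‖ - ‖c • (u : X) + ∑ i, a i • (x i : X)‖| ≤
      ε * (|c| + ∑ i, |a i|) := by
  have := h (Fin.cons u x) (Fin.cons c a)
  simpa [Fin.sum_univ_succ] using this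

theorem Lin.pred {k : ℕ} {ε : ℝ} {f : sphere (0 : X) 1 → sphere (0 : Y) 1} (h : Lin (k + 1) ε f) :
    Lin k ε f := by
  intro x a
  rcases Nat.eq_zero_or_pos k with rfl | hk
  · simp
  · simpa using h.cons (x ⟨0, hk⟩) 0 x a

theorem Lin.of_le {k m : ℕ} {ε : ℝ} {f : sphere (0 : X) 1 → sphere (0 : Y) 1} (h : Lin m ε f)
    (hk : k ≤ m) : Lin k ε f := by
  induction hk with
  | refl => exact h
  | step _ ih => exact ih h.pred

/-- Auerbach's lemma. -/
theorem exists_auerbach [FiniteDimensional ℝ X] :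
    ∃ b : Basis (Fin (finrank ℝ X)) ℝ X, (∀ i, ‖b i‖ = 1) ∧ ∀ x i, |b.repr x i| ≤ ‖x‖ := by
  classical
  let e := Module.finBasis ℝ X
  have hc : Continuous fun v : Fin (finrank ℝ X) → X => |e.det v| := by
    simp only [Basis.det_apply]
    exact (Continuous.matrix_det e.continuous_toMatrix).abs
  have hK : IsCompact (Set.pi Set.univ fun _ : Fin (finrank ℝ X) => sphere (0 : X) 1) :=
    isCompact_univ_pi fun _ => isCompact_sphere _ _
  have hw : ∀ i, IsUnit (‖e i‖⁻¹) := fun i =>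
    (inv_ne_zero (norm_ne_zero_iff.mpr (e.ne_zero i))).isUnit
  have h0 : ((e.isUnitSMul hw : Basis _ ℝ X) : _ → X) ∈
      Set.pi Set.univ fun _ : Fin (finrank ℝ X) => sphere (0 : X) 1 := by
    intro i _
    rw [mem_sphere_zero_iff_norm, Basis.isUnitSMul_apply, norm_smul, norm_inv, norm_norm,
      inv_mul_cancel₀ (norm_ne_zero_iff.mpr (e.ne_zero i))]
  obtain ⟨v, hv, hmax⟩ := hK.exists_isMaxOn ⟨_, h0⟩ hc.continuousOn
  have hpos : 0 < |e.det v| :=
    lt_of_lt_of_le (abs_pos.mpr (e.isUnit_det (e.isUnitSMul hw)).ne_zero) (hmax h0)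
  obtain ⟨hli, hsp⟩ := e.is_basis_iff_det.mpr (abs_pos.mp hpos).isUnit
  refine ⟨Basis.mk hli hsp.ge, fun i => ?_, fun x i => ?_⟩
  · rw [Basis.mk_apply]
    exact mem_sphere_zero_iff_norm.mp (hv i trivial)
  · have key : ∀ y : X, ‖y‖ = 1 → |(Basis.mk hli hsp.ge).repr y i| ≤ 1 := by
      intro y hy
      have h1 := LinearMap.congr_fun (e.det_smul_mk_coord_eq_det_update hli hsp.ge i) y
      have h2 : Function.update v i y ∈
          Set.pi Set.univ fun _ : Fin (finrank ℝ X) => sphere (0 : X) 1 := by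
        intro j _
        rcases eq_or_ne j i with rfl | hj
        · simpa using hy
        · rw [Function.update_of_ne hj]
          exact hv j trivial
      have h3 : |e.det (Function.update v i y)| ≤ |e.det v| := hmax h2
      have h4 : e.det v * (Basis.mk hli hsp.ge).repr y i = e.det (Function.update v i y) := by
        simpa using h1
      rw [← h4, abs_mul] at h3
      by_contra hlt
      push Not at hlt
      nlinarith
    rcases eq_or_ne x 0 with rfl | hx
    · rw [map_zero, Finsupp.zero_apply, abs_zero, norm_zero]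
    · have hn : 0 < ‖x‖ := norm_pos_iff.mpr hx
      have := key (‖x‖⁻¹ • x) (by rw [norm_smul, norm_inv, norm_norm, inv_mul_cancel₀ hn.ne'])
      rw [map_smul, Finsupp.smul_apply, smul_eq_mul, abs_mul, abs_inv, abs_of_pos hn,
        inv_mul_le_iff₀ hn, mul_one] at this
      exact this

theorem exists_linear_near [FiniteDimensional ℝ X] {n : ℕ} (hn : finrank ℝ X ≤ n) {ε : ℝ}
    (hε : 0 ≤ ε) {f : sphere (0 : X) 1 → sphere (0 : Y) 1} (h : Lin (n + 1) ε f) :
    ∃ T : X →ₗ[ℝ] Y, ∀ x : sphere (0 : X) 1, ‖T x - f x‖ ≤ ε * (n + 1) := by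
  obtain ⟨b, hb, hc⟩ := exists_auerbach (X := X)
  let e : Fin (finrank ℝ X) → sphere (0 : X) 1 := fun i => ⟨b i, mem_sphere_zero_iff_norm.mpr (hb i)⟩
  refine ⟨b.constr ℝ fun i => (f (e i) : Y), fun x => ?_⟩
  have h1 := (h.of_le (Nat.succ_le_succ hn)).cons x (-1) e fun i => b.repr x i
  have h2 : ∑ i, b.repr x i • (e i : X) = x := b.sum_repr x
  have h3 : b.constr ℝ (fun i => (f (e i) : Y)) x = ∑ i, b.repr x i • (f (e i) : Y) := by
    rw [Basis.constr_apply_fintype]
    rfl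
  rw [h2, neg_one_smul, neg_one_smul, neg_add_cancel, norm_zero, sub_zero, abs_norm, ← h3,
    neg_add_eq_sub] at h1
  refine h1.trans (mul_le_mul_of_nonneg_left ?_ hε)
  have h4 : ∑ i, |b.repr x i| ≤ ∑ _i : Fin (finrank ℝ X), (1 : ℝ) :=
    Finset.sum_le_sum fun i _ => (hc x i).trans (mem_sphere_zero_iff_norm.mp x.2).le
  have h5 : (finrank ℝ X : ℝ) ≤ n := by exact_mod_cast hn
  simp only [Finset.sum_const, Finset.card_univ, Fintype.card_fin, nsmul_eq_mul, mul_one] at h4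
  simp only [abs_neg, abs_one]
  linarith

theorem exists_equiv_near [FiniteDimensional ℝ X] {ε : ℝ} (hε : ε ≤ 1 / 4)
    {f : sphere (0 : X) 1 → sphere (0 : Y) 1} (hd : ∀ y, ∃ x, dist (f x) y ≤ 1 / 4)
    (T : X →ₗ[ℝ] Y) (hT : ∀ x : sphere (0 : X) 1, ‖T x - f x‖ ≤ ε) :
    ∃ S : X ≃L[ℝ] Y, ∀ x, S x = T x := by
  have hinj : Function.Injective T := by
    rw [← LinearMap.ker_eq_bot, Submodule.eq_bot_iff]
    intro x hx
    by_contra h0
    have hn : 0 < ‖x‖ := norm_pos_iff.mpr h0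
    have h1 := hT ⟨‖x‖⁻¹ • x, by
      rw [mem_sphere_zero_iff_norm, norm_smul, norm_inv, norm_norm, inv_mul_cancel₀ hn.ne']⟩
    rw [map_smul, LinearMap.mem_ker.mp hx, smul_zero, zero_sub, norm_neg,
      mem_sphere_zero_iff_norm.mp (f _).2] at h1
    linarith
  have hsurj : Function.Surjective T := by
    rw [← LinearMap.range_eq_top]
    by_contra hne
    have hcl : IsClosed (LinearMap.range T : Set Y) :=
      (LinearMap.range T).closed_of_finiteDimensional
    have hex : ∃ y : Y, y ∉ LinearMap.range T := by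
      by_contra hall
      push Not at hall
      exact hne (Submodule.eq_top_iff'.mpr hall)
    obtain ⟨y, -, hy1, hy⟩ := riesz_lemma_of_lt_one hcl hex (show (3 / 4 : ℝ) < 1 by norm_num)
    obtain ⟨x, hx⟩ := hd ⟨y, mem_sphere_zero_iff_norm.mpr hy1⟩
    have h1 := hy (T x) (LinearMap.mem_range_self T x)
    have h2 : ‖(f x : Y) - y‖ ≤ 1 / 4 := by
      rw [← dist_eq_norm]
      exact hx
    have h3 : ‖y - T x‖ ≤ ‖(f x : Y) - y‖ + ‖T x - f x‖ := by
      have : y - T x = -(((f x : Y) - y) + (T x - f x)) := by abel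
      rw [this, norm_neg]
      exact norm_add_le _ _
    linarith [hT x]
  have : FiniteDimensional ℝ Y := Module.Finite.of_surjective T hsurj
  exact ⟨(LinearEquiv.ofBijective T ⟨hinj, hsurj⟩).toContinuousLinearEquiv, fun _ => rfl⟩

end

theorem finDim_stability (n : ℕ) (ε : ℝ) (hε : 0 < ε) :
    ∃ δ : ℝ, 0 < δ ∧ ∀ (X : Type u) [NormedAddCommGroup X] [NormedSpace ℝ X]
      (Y : Type v) [NormedAddCommGroup Y] [NormedSpace ℝ Y]
      (f : sphere (0 : X) 1 → sphere (0 : Y) 1), FiniteDimensional ℝ X → finrank ℝ X ≤ n →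
      (∀ x x', |dist (f x) (f x') - dist x x'| ≤ δ) → (∀ y, ∃ x, dist (f x) y ≤ δ) →
      ∃ T : X ≃L[ℝ] Y, ∀ x : sphere (0 : X) 1, ‖T x - f x‖ ≤ ε := by
  have hn : (0 : ℝ) < n + 1 := by positivity
  have hε' : 0 < min ε (1 / 4) := lt_min hε (by norm_num)
  obtain ⟨δ, hδ, h⟩ := Vale.Agent.P084.H406.stability.{u, v} (n + 1) (min ε (1 / 4) / (n + 1))
    (div_pos hε' hn)
  refine ⟨min δ (1 / 4), lt_min hδ (by norm_num), fun X _ _ Y _ _ f _ hX h1 h2 => ?_⟩
  have hL : Lin (n + 1) (min ε (1 / 4) / (n + 1)) f :=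
    h X Y f (fun x x' => (h1 x x').trans (min_le_left _ _)) fun y =>
      (h2 y).imp fun _ hx => hx.trans (min_le_left _ _)
  obtain ⟨T, hT⟩ := exists_linear_near hX (div_pos hε' hn).le hL
  rw [div_mul_cancel₀ _ hn.ne'] at hT
  obtain ⟨S, hS⟩ := exists_equiv_near (min_le_right _ _)
    (fun y => (h2 y).imp fun _ hx => hx.trans (min_le_right _ _)) T hT
  exact ⟨S, fun x => by rw [hS]; exact (hT x).trans (min_le_left _ _)⟩

end Vale.Agent.N084
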