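import Vale.Agent.N084.FinDim

/-!
Gluing two normed spaces along a map between their unit spheres which almost preserves the norms
of all linear combinations.
-/

namespace Vale.Agent.N084

open Metric

universe u v w

variable {X : Type u} [NormedAddCommGroup X] [NormedSpace ℝ X]
  {Y : Type v} [NormedAddCommGroup Y] [NormedSpace ℝ Y]

theorem exists_space {E : Type w} [AddCommGroup E] [Module ℝ E] (p : Seminorm ℝ E)
    (hp : ∀ z, p z = 0 → z = 0) (i : X →ₗ[ℝ] E) (j : Y →ₗ[ℝ] E) (hi : ∀ x, p (i x) = ‖x‖)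
    (hj : ∀ y, p (j y) = ‖y‖) :
    ∃ (Z : Type w) (_ : NormedAddCommGroup Z) (_ : NormedSpace ℝ Z) (I : X →ₗᵢ[ℝ] Z)
      (J : Y →ₗᵢ[ℝ] Z), ∀ x y, ‖I x - J y‖ = p (i x - j y) := by
  let _ : Norm E := ⟨p⟩
  have core : NormedSpace.Core ℝ E :=
    { norm_nonneg := fun x => apply_nonneg p x
      norm_smul := fun c x => map_smul_eq_mul p c x
      norm_triangle := fun x y => map_add_le_add p x y
      norm_eq_zero_iff := fun x => ⟨hp x, fun h => by subst h; exact map_zero p⟩ }
  let _ : NormedAddCommGroup E := NormedAddCommGroup.ofCore core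
  let _ : NormedSpace ℝ E := NormedSpace.ofCore core
  exact ⟨E, inferInstance, inferInstance, ⟨i, hi⟩, ⟨j, hj⟩, fun _ _ => rfl⟩

theorem exists_glue {W : Type*} [AddCommGroup W] [Module ℝ W] (P : W →ₗ[ℝ] X) (Q : W →ₗ[ℝ] Y)
    (L : Seminorm ℝ W) {ε : ℝ} (hε : 0 < ε) (hP : ∀ a, ‖P a‖ ≤ L a) (hQ : ∀ a, ‖Q a‖ ≤ L a)
    (h : ∀ a, |‖Q a‖ - ‖P a‖| ≤ ε * L a) :
    ∃ (Z : Type (max u v)) (_ : NormedAddCommGroup Z) (_ : NormedSpace ℝ Z) (I : X →ₗᵢ[ℝ] Z)
      (J : Y →ₗᵢ[ℝ] Z), ∀ a, ‖I (P a) - J (Q a)‖ ≤ ε * L a := by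
  let g : X × Y → W → ℝ := fun z a => ‖z.1 - P a‖ + ‖z.2 + Q a‖ + ε * L a
  have g0 : ∀ z a, 0 ≤ g z a := fun z a => by
    have := apply_nonneg L a
    positivity
  have bdd : ∀ z, BddBelow (Set.range (g z)) := fun z => ⟨0, by rintro _ ⟨a, rfl⟩; exact g0 z a⟩
  have hle : ∀ z a, ⨅ a, g z a ≤ g z a := fun z a => ciInf_le (bdd z) a
  let p : Seminorm ℝ (X × Y) := Seminorm.ofSMulLE (fun z => ⨅ a, g z a)
    (le_antisymm ((hle 0 0).trans (by simp [g])) (le_ciInf fun a => g0 0 a))
    (fun z z' => le_ciInf_add_ciInf fun a a' => (hle (z + z') (a + a')).trans (by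
      have h1 : ‖(z + z').1 - P (a + a')‖ ≤ ‖z.1 - P a‖ + ‖z'.1 - P a'‖ := by
        refine le_trans (le_of_eq ?_) (norm_add_le _ _)
        rw [map_add, Prod.fst_add]
        congr 1
        abel
      have h2 : ‖(z + z').2 + Q (a + a')‖ ≤ ‖z.2 + Q a‖ + ‖z'.2 + Q a'‖ := by
        refine le_trans (le_of_eq ?_) (norm_add_le _ _)
        rw [map_add, Prod.snd_add]
        congr 1
        abel
      have h3 := mul_le_mul_of_nonneg_left (map_add_le_add L a a') hε.le
      simp only [g]
      linarith))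
    (fun r z => by
      rw [Real.mul_iInf_of_nonneg (norm_nonneg r)]
      refine le_ciInf fun a => (hle (r • z) (r • a)).trans (le_of_eq ?_)
      simp only [g, map_smul, Prod.smul_fst, Prod.smul_snd, ← smul_sub, ← smul_add, norm_smul,
        map_smul_eq_mul]
      ring)
  have hp : ∀ z, p z = ⨅ a, g z a := fun _ => rfl
  have hdef : ∀ z, p z = 0 → z = 0 := by
    intro z hz
    have h1 : min ε 1 / 2 * (‖z.1‖ + ‖z.2‖) ≤ ⨅ a, g z a := by
      refine le_ciInf fun a => ?_
      have e1 : ‖z.1‖ ≤ ‖z.1 - P a‖ + L a := by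
        have := norm_add_le (z.1 - P a) (P a)
        rw [sub_add_cancel] at this
        linarith [hP a]
      have e2 : ‖z.2‖ ≤ ‖z.2 + Q a‖ + L a := by
        have := norm_sub_le (z.2 + Q a) (Q a)
        rw [add_sub_cancel_right] at this
        linarith [hQ a]
      have m1 := min_le_left ε 1
      have m2 := min_le_right ε 1
      have m0 : 0 < min ε 1 := lt_min hε one_pos
      have l0 := apply_nonneg L a
      have n1 := norm_nonneg (z.1 - P a)
      have n2 := norm_nonneg (z.2 + Q a)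
      simp only [g]
      nlinarith
    rw [← hp, hz] at h1
    have m0 : 0 < min ε 1 / 2 := half_pos (lt_min hε one_pos)
    have n1 := norm_nonneg z.1
    have n2 := norm_nonneg z.2
    have h2 : ‖z.1‖ + ‖z.2‖ ≤ 0 := by
      by_contra hc
      push Not at hc
      nlinarith
    exact Prod.ext (norm_eq_zero.mp (by linarith)) (norm_eq_zero.mp (by linarith))
  obtain ⟨Z, i1, i2, I, J, hIJ⟩ := exists_space p hdef (LinearMap.inl ℝ X Y) (LinearMap.inr ℝ X Y)
    (fun x => by
      rw [hp]
      refine le_antisymm ((hle _ 0).trans (by simp [g])) (le_ciInf fun a => ?_)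
      have := norm_add_le (x - P a) (P a)
      rw [sub_add_cancel] at this
      have h2 := (abs_le.mp (h a)).1
      simp only [g, LinearMap.inl_apply, zero_add]
      linarith)
    (fun y => by
      rw [hp]
      refine le_antisymm ((hle _ 0).trans (by simp [g])) (le_ciInf fun a => ?_)
      have := norm_sub_le (y + Q a) (Q a)
      rw [add_sub_cancel_right] at this
      have h2 := (abs_le.mp (h a)).2
      simp only [g, LinearMap.inr_apply, zero_sub, norm_neg]
      linarith)
  refine ⟨Z, i1, i2, I, J, fun a => ?_⟩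
  rw [hIJ, hp]
  exact (hle _ a).trans (by simp [g])

theorem glue_of_lin {ε : ℝ} (hε : 0 < ε) {f : sphere (0 : X) 1 → sphere (0 : Y) 1}
    (h : ∀ m, Lin m ε f) :
    ∃ (Z : Type (max u v)) (_ : NormedAddCommGroup Z) (_ : NormedSpace ℝ Z) (I : X →ₗᵢ[ℝ] Z)
      (J : Y →ₗᵢ[ℝ] Z), ∀ x : sphere (0 : X) 1, ‖I x - J (f x)‖ ≤ ε := by
  classical
  let S := sphere (0 : X) 1
  let L : Seminorm ℝ (S →₀ ℝ) := Seminorm.of (fun a => ∑ x ∈ a.support, |a x|)
    (fun a b => by
      have e : ∀ c : S →₀ ℝ, c.support ⊆ a.support ∪ b.support →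
          ∑ x ∈ c.support, |c x| = ∑ x ∈ a.support ∪ b.support, |c x| := fun c hc =>
        Finset.sum_subset hc fun x _ hx => by rw [Finsupp.notMem_support_iff.mp hx, abs_zero]
      rw [e (a + b) Finsupp.support_add, e a Finset.subset_union_left,
        e b Finset.subset_union_right, ← Finset.sum_add_distrib]
      exact Finset.sum_le_sum fun x _ => abs_add_le _ _)
    (fun c a => by
      rw [Finset.sum_subset (Finsupp.support_smul (b := c) (g := a))
        fun x _ hx => by rw [Finsupp.notMem_support_iff.mp hx, abs_zero], Finset.mul_sum]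
      exact Finset.sum_congr rfl fun x _ => by simp [abs_mul])
  have hL : ∀ a, L a = ∑ x ∈ a.support, |a x| := fun _ => rfl
  let P : (S →₀ ℝ) →ₗ[ℝ] X := Finsupp.linearCombination ℝ fun x : S => (x : X)
  let Q : (S →₀ ℝ) →ₗ[ℝ] Y := Finsupp.linearCombination ℝ fun x : S => (f x : Y)
  have hP : ∀ a, P a = ∑ x ∈ a.support, a x • (x : X) := fun a =>
    Finsupp.linearCombination_apply _ _
  have hQ : ∀ a, Q a = ∑ x ∈ a.support, a x • (f x : Y) := fun a =>
    Finsupp.linearCombination_apply _ _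
  obtain ⟨Z, i1, i2, I, J, hIJ⟩ := exists_glue P Q L hε
    (fun a => by
      rw [hP, hL]
      refine (norm_sum_le _ _).trans (le_of_eq (Finset.sum_congr rfl fun x _ => ?_))
      rw [norm_smul, mem_sphere_zero_iff_norm.mp x.2, mul_one, Real.norm_eq_abs])
    (fun a => by
      rw [hQ, hL]
      refine (norm_sum_le _ _).trans (le_of_eq (Finset.sum_congr rfl fun x _ => ?_))
      rw [norm_smul, mem_sphere_zero_iff_norm.mp (f x).2, mul_one, Real.norm_eq_abs])
    (fun a => by
      have e := a.support.equivFin.symm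
      have := h _ (fun i => (e i : S)) fun i => a (e i)
      rw [hP, hQ, hL, ← Finset.sum_coe_sort, ← Finset.sum_coe_sort a.support,
        ← Finset.sum_coe_sort a.support, ← e.sum_comp, ← e.sum_comp, ← e.sum_comp]
      exact this)
  refine ⟨Z, i1, i2, I, J, fun x => ?_⟩
  have := hIJ (Finsupp.single x 1)
  rw [hL, Finsupp.support_single _ one_ne_zero] at this
  simpa [P, Q] using this

end Vale.Agent.N084
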