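import Vale.Agent.P084.MathlibUsed

/-!
The Mazur map between the unit spheres of two sequence spaces with close exponents is an almost
isometry, uniformly in the dimension.
-/

namespace Vale.Agent.N084

open Metric Filter Topology WithLp
open scoped ENNReal

universe w

/-- The signed power. -/
noncomputable def sp (s t : ℝ) : ℝ := max t 0 ^ s - max (-t) 0 ^ s

theorem sp_of_nonneg {s t : ℝ} (hs : 0 < s) (ht : 0 ≤ t) : sp s t = t ^ s := by
  rw [sp, max_eq_left ht, max_eq_right (neg_nonpos.mpr ht), Real.zero_rpow hs.ne', sub_zero]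

theorem sp_neg (s t : ℝ) : sp s (-t) = -sp s t := by
  rw [sp, sp, neg_neg, neg_sub]

theorem abs_sp {s : ℝ} (hs : 0 < s) (t : ℝ) : |sp s t| = |t| ^ s := by
  rcases le_total 0 t with ht | ht
  · rw [sp_of_nonneg hs ht, abs_of_nonneg ht, abs_of_nonneg (Real.rpow_nonneg ht s)]
  · rw [← abs_neg, ← sp_neg, sp_of_nonneg hs (neg_nonneg.mpr ht), abs_of_nonpos ht,
      abs_of_nonneg (Real.rpow_nonneg (neg_nonneg.mpr ht) s)]

theorem sp_mul (s : ℝ) {c : ℝ} (hc : 0 ≤ c) (t : ℝ) : sp s (c * t) = c ^ s * sp s t := by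
  have e : ∀ u : ℝ, max (c * u) 0 = c * max u 0 := fun u => by
    rw [mul_max_of_nonneg _ _ hc, mul_zero]
  rw [sp, sp, ← mul_neg, e, e, Real.mul_rpow hc (le_max_right _ _),
    Real.mul_rpow hc (le_max_right _ _), mul_sub]

theorem sp_sp {r s : ℝ} (hr : 0 < r) (hs : 0 < s) (h : s * r = 1) (t : ℝ) : sp r (sp s t) = t := by
  have key : ∀ u : ℝ, 0 ≤ u → sp r (sp s u) = u := fun u hu => by
    rw [sp_of_nonneg hs hu, sp_of_nonneg hr (Real.rpow_nonneg hu s), ← Real.rpow_mul hu, h,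
      Real.rpow_one]
  rcases le_total 0 t with ht | ht
  · exact key t ht
  · have := key (-t) (neg_nonneg.mpr ht)
    rwa [sp_neg, sp_neg, neg_inj] at this

theorem sp_one (t : ℝ) : sp 1 t = t := by
  rw [sp, Real.rpow_one, Real.rpow_one]
  exact max_zero_sub_max_neg_zero_eq_self t

theorem continuousAt_sp {α : Type*} [TopologicalSpace α] {s t : α → ℝ} {x : α}
    (hs : ContinuousAt s x) (ht : ContinuousAt t x) (h : 0 < s x) :
    ContinuousAt (fun z => sp (s z) (t z)) x :=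
  ((ht.max continuousAt_const).rpow hs (Or.inr h)).sub
    ((ht.neg.max continuousAt_const).rpow hs (Or.inr h))

theorem scalar_one {q η : ℝ} (hq : 0 < q) (hη : 0 < η) : ∀ᶠ p in 𝓝 q, ∀ a b : ℝ,
    abs (|sp (q / p) a - sp (q / p) b| ^ p - |a - b| ^ q) ≤ η * (|a| ^ q + |b| ^ q) := by
  have h1 : ∀ᶠ p in 𝓝 q, ∀ y ∈ closedBall (0 : ℝ × ℝ) 1,
      abs (|sp (q / p) y.1 - sp (q / p) y.2| ^ p - |y.1 - y.2| ^ q) < η := by
    refine (isCompact_closedBall _ _).eventually_forall_of_forall_eventually fun y _ => ?_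
    have hs : ContinuousAt (fun z : ℝ × ℝ × ℝ => q / z.1) (q, y) :=
      continuousAt_const.div continuousAt_fst hq.ne'
    have hc : ContinuousAt (fun z : ℝ × ℝ × ℝ =>
        abs (|sp (q / z.1) z.2.1 - sp (q / z.1) z.2.2| ^ z.1 - |z.2.1 - z.2.2| ^ q)) (q, y) :=
      ((((continuousAt_sp hs continuousAt_snd.fst (div_pos hq hq)).sub
        (continuousAt_sp hs continuousAt_snd.snd (div_pos hq hq))).abs.rpow continuousAt_fst
          (Or.inr hq)).sub
        ((continuousAt_snd.fst.sub continuousAt_snd.snd).abs.rpow_const (Or.inr hq.le))).abs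
    refine hc.eventually_lt continuousAt_const ?_
    simpa [div_self hq.ne', sp_one] using hη
  filter_upwards [h1, lt_mem_nhds hq] with p hp hp0 a b
  rcases eq_or_ne ((a, b) : ℝ × ℝ) 0 with h0 | h0
  · obtain ⟨rfl, rfl⟩ := Prod.mk_eq_zero.mp h0
    simp [Real.zero_rpow hq.ne', Real.zero_rpow hp0.ne']
  have hc : 0 < ‖((a, b) : ℝ × ℝ)‖ := norm_pos_iff.mpr h0
  set c := ‖((a, b) : ℝ × ℝ)‖ with hcdef
  have h2 := hp (c⁻¹ • (a, b)) (by
    rw [mem_closedBall_zero_iff, norm_smul, norm_inv, norm_norm, inv_mul_cancel₀ hc.ne'])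
  simp only [Prod.smul_mk, smul_eq_mul] at h2
  have ea : a = c * (c⁻¹ * a) := by field_simp
  have eb : b = c * (c⁻¹ * b) := by field_simp
  have e1 : |sp (q / p) a - sp (q / p) b| ^ p =
      c ^ q * |sp (q / p) (c⁻¹ * a) - sp (q / p) (c⁻¹ * b)| ^ p := by
    conv_lhs => rw [ea, eb]
    rw [sp_mul _ hc.le, sp_mul _ hc.le, ← mul_sub, abs_mul,
      abs_of_nonneg (Real.rpow_nonneg hc.le _),
      Real.mul_rpow (Real.rpow_nonneg hc.le _) (abs_nonneg _), ← Real.rpow_mul hc.le,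
      div_mul_cancel₀ _ hp0.ne']
  have e2 : |a - b| ^ q = c ^ q * |c⁻¹ * a - c⁻¹ * b| ^ q := by
    conv_lhs => rw [ea, eb]
    rw [← mul_sub, abs_mul, abs_of_pos hc, Real.mul_rpow hc.le (abs_nonneg _)]
  have e3 : c ^ q ≤ |a| ^ q + |b| ^ q := by
    have a0 := Real.rpow_nonneg (abs_nonneg a) q
    have b0 := Real.rpow_nonneg (abs_nonneg b) q
    rw [hcdef, Prod.norm_def, Real.norm_eq_abs, Real.norm_eq_abs]
    rcases max_choice |a| |b| with h | h <;> rw [h] <;> linarith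
  have c0 := Real.rpow_nonneg hc.le q
  rw [e1, e2, ← mul_sub, abs_mul, abs_of_nonneg c0, mul_comm]
  exact mul_le_mul h2.le e3 c0 hη.le

theorem scalar_two {q δ : ℝ} (hq : 0 < q) (hδ : 0 < δ) : ∃ η : ℝ, 0 < η ∧ ∀ᶠ p in 𝓝 q,
    ∀ t ∈ Set.Icc (0 : ℝ) (2 ^ q), ∀ e : ℝ, |e| ≤ η → |(t + e) ^ (1 / p) - t ^ (1 / q)| ≤ δ := by
  have h1 : ∀ᶠ z in 𝓝 ((q, 0) : ℝ × ℝ), ∀ t ∈ Set.Icc (0 : ℝ) (2 ^ q),
      |(t + z.2) ^ (1 / z.1) - t ^ (1 / q)| < δ := by
    refine isCompact_Icc.eventually_forall_of_forall_eventually fun t _ => ?_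
    have hs : ContinuousAt (fun z : (ℝ × ℝ) × ℝ => 1 / z.1.1) ((q, 0), t) :=
      continuousAt_const.div continuousAt_fst.fst hq.ne'
    have hc : ContinuousAt (fun z : (ℝ × ℝ) × ℝ => |(z.2 + z.1.2) ^ (1 / z.1.1) - z.2 ^ (1 / q)|)
        ((q, 0), t) :=
      (((continuousAt_snd.add continuousAt_fst.snd).rpow hs (Or.inr (one_div_pos.mpr hq))).sub
        (continuousAt_snd.rpow_const (Or.inr (one_div_pos.mpr hq).le))).abs
    refine hc.eventually_lt continuousAt_const ?_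
    simpa using hδ
  rw [nhds_prod_eq, eventually_prod_iff] at h1
  obtain ⟨pa, hpa, pb, hpb, h⟩ := h1
  obtain ⟨ε, hε, hb⟩ := Metric.eventually_nhds_iff.mp hpb
  refine ⟨ε / 2, half_pos hε, hpa.mono fun p hp t ht e he => (h hp (hb ?_) t ht).le⟩
  rw [Real.dist_eq, sub_zero]
  linarith

section

variable {n : ℕ} {P Q : ℝ≥0∞} [Fact (1 ≤ P)] [Fact (1 ≤ Q)]

omit [Fact (1 ≤ P)] in
theorem norm_rpow_eq (hP : 0 < P.toReal) (x : PiLp P fun _ : Fin n => ℝ) :
    ‖x‖ ^ P.toReal = ∑ i, |x i| ^ P.toReal := by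
  rw [PiLp.norm_eq_sum hP, ← Real.rpow_mul (Finset.sum_nonneg fun i _ => by positivity),
    one_div_mul_cancel hP.ne', Real.rpow_one]
  simp only [Real.norm_eq_abs]

theorem mazur_mem (hP : 0 < P.toReal) (hQ : 0 < Q.toReal)
    (x : sphere (0 : PiLp Q fun _ : Fin n => ℝ) 1) :
    toLp P (fun i => sp (Q.toReal / P.toReal) (x.1 i)) ∈
      sphere (0 : PiLp P fun _ : Fin n => ℝ) 1 := by
  have h := norm_rpow_eq hQ x.1
  rw [mem_sphere_zero_iff_norm.mp x.2, Real.one_rpow] at h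
  rw [mem_sphere_zero_iff_norm, PiLp.norm_eq_sum hP]
  have : ∀ i, ‖sp (Q.toReal / P.toReal) (x.1 i)‖ ^ P.toReal = |x.1 i| ^ Q.toReal := fun i => by
    rw [Real.norm_eq_abs, abs_sp (div_pos hQ hP), ← Real.rpow_mul (abs_nonneg _),
      div_mul_cancel₀ _ hP.ne']
  simp only [this, ← h, Real.one_rpow]

theorem mazur_cont (hP : 0 < P.toReal) (hQ : 0 < Q.toReal) :
    Continuous fun x : sphere (0 : PiLp Q fun _ : Fin n => ℝ) 1 =>
      (⟨_, mazur_mem hP hQ x⟩ : sphere (0 : PiLp P fun _ : Fin n => ℝ) 1) := by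
  refine Continuous.subtype_mk ((PiLp.continuous_toLp _ _).comp (continuous_pi fun i => ?_)) _
  refine continuous_iff_continuousAt.mpr fun x =>
    continuousAt_sp continuousAt_const (Continuous.continuousAt ?_) (div_pos hQ hP)
  fun_prop

/-- The Mazur map. -/
noncomputable def mazur (hP : 0 < P.toReal) (hQ : 0 < Q.toReal) :
    sphere (0 : PiLp Q fun _ : Fin n => ℝ) 1 ≃ₜ sphere (0 : PiLp P fun _ : Fin n => ℝ) 1 where
  toFun x := ⟨_, mazur_mem hP hQ x⟩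
  invFun y := ⟨_, mazur_mem hQ hP y⟩
  left_inv x := by
    ext i
    exact sp_sp (div_pos hP hQ) (div_pos hQ hP) (by field_simp) _
  right_inv y := by
    ext i
    exact sp_sp (div_pos hQ hP) (div_pos hP hQ) (by field_simp) _
  continuous_toFun := mazur_cont hP hQ
  continuous_invFun := mazur_cont hQ hP

theorem mazur_apply (hP : 0 < P.toReal) (hQ : 0 < Q.toReal)
    (x : sphere (0 : PiLp Q fun _ : Fin n => ℝ) 1) (i : Fin n) :
    (mazur hP hQ x).1 i = sp (Q.toReal / P.toReal) (x.1 i) := rfl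

omit [Fact (1 ≤ P)] in
theorem norm_toLp_sign (hP : 0 < P.toReal) {σ : Fin n → ℝ} (hσ : ∀ i, |σ i| = 1) :
    ‖toLp P σ‖ = (n : ℝ) ^ (1 / P.toReal) := by
  rw [PiLp.norm_eq_sum hP]
  simp [hσ]

omit [Fact (1 ≤ P)] in
theorem toLp_eq_sum (σ : Fin n → ℝ) :
    toLp P σ = ∑ i, σ i • (PiLp.single P i (1 : ℝ) : PiLp P fun _ : Fin n => ℝ) := by
  ext j
  simp [Pi.single_apply]

end

theorem mazur_almost {Q : ℝ≥0∞} [Fact (1 ≤ Q)] (hQ : 0 < Q.toReal) {δ : ℝ} (hδ : 0 < δ) :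
    ∀ᶠ p in 𝓝 Q.toReal, ∀ (n : ℕ) (P : ℝ≥0∞) [Fact (1 ≤ P)] (hP : 0 < P.toReal), P.toReal = p →
      ∀ x y : sphere (0 : PiLp Q fun _ : Fin n => ℝ) 1,
        |dist (mazur hP hQ x) (mazur hP hQ y) - dist x y| ≤ δ := by
  obtain ⟨η, hη, h2⟩ := scalar_two hQ hδ
  filter_upwards [h2, scalar_one hQ (half_pos hη)] with p h2 h1 n P _ hP hp x y
  subst hp
  have hx := norm_rpow_eq hQ x.1
  have hy := norm_rpow_eq hQ y.1
  rw [mem_sphere_zero_iff_norm.mp x.2, Real.one_rpow] at hx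
  rw [mem_sphere_zero_iff_norm.mp y.2, Real.one_rpow] at hy
  have ht : ∑ i, |x.1 i - y.1 i| ^ Q.toReal ∈ Set.Icc (0 : ℝ) (2 ^ Q.toReal) := by
    refine ⟨Finset.sum_nonneg fun i _ => by positivity, ?_⟩
    have := norm_rpow_eq hQ (x.1 - y.1)
    simp only [PiLp.sub_apply] at this
    rw [← this]
    refine Real.rpow_le_rpow (norm_nonneg _) ?_ hQ.le
    linarith [norm_sub_le x.1 y.1, mem_sphere_zero_iff_norm.mp x.2,
      mem_sphere_zero_iff_norm.mp y.2]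
  have he : |∑ i, |sp (Q.toReal / P.toReal) (x.1 i) - sp (Q.toReal / P.toReal) (y.1 i)| ^ P.toReal -
      ∑ i, |x.1 i - y.1 i| ^ Q.toReal| ≤ η := by
    rw [← Finset.sum_sub_distrib]
    refine (Finset.abs_sum_le_sum_abs _ _).trans
      ((Finset.sum_le_sum fun i _ => h1 (x.1 i) (y.1 i)).trans (le_of_eq ?_))
    rw [← Finset.mul_sum, Finset.sum_add_distrib, ← hx, ← hy]
    ring
  have h3 := h2 _ ht _ he
  rw [add_sub_cancel] at h3
  rw [Subtype.dist_eq, Subtype.dist_eq, dist_eq_norm, dist_eq_norm, PiLp.norm_eq_sum hP,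
    PiLp.norm_eq_sum hQ]
  simpa only [PiLp.sub_apply, mazur_apply, Real.norm_eq_abs] using h3

theorem exists_signs {E ι : Type*} [NormedAddCommGroup E] [InnerProductSpace ℝ E] (y : ι → E)
    (s : Finset ι) :
    ∃ σ : ι → ℝ, (∀ i, |σ i| = 1) ∧ ‖∑ i ∈ s, σ i • y i‖ ^ 2 ≤ ∑ i ∈ s, ‖y i‖ ^ 2 := by
  classical
  induction s using Finset.induction_on with
  | empty => exact ⟨fun _ => 1, by simp, by simp⟩
  | insert a s ha ih =>
    obtain ⟨σ, hσ, h⟩ := ih
    obtain ⟨c, hc, hcy⟩ : ∃ c : ℝ, |c| = 1 ∧ c * inner ℝ (y a) (∑ i ∈ s, σ i • y i) ≤ 0 := by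
      rcases le_total (inner ℝ (y a) (∑ i ∈ s, σ i • y i)) 0 with h0 | h0
      · exact ⟨1, by simp, by linarith⟩
      · exact ⟨-1, by simp, by linarith⟩
    refine ⟨Function.update σ a c, fun i => ?_, ?_⟩
    · rcases eq_or_ne i a with rfl | hi
      · simpa using hc
      · rw [Function.update_of_ne hi, hσ]
    · have e : ∑ i ∈ s, Function.update σ a c i • y i = ∑ i ∈ s, σ i • y i :=
        Finset.sum_congr rfl fun i hi => by
          rw [Function.update_of_ne (ne_of_mem_of_not_mem hi ha)]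
      rw [Finset.sum_insert ha, Finset.sum_insert ha, Function.update_self, e, norm_add_sq_real,
        norm_smul, Real.norm_eq_abs, hc, one_mul, real_inner_smul_left]
      linarith

theorem euclidean_far {δ : ℝ} (hδ : 0 < δ) (K : ℝ) :
    ∃ (n : ℕ) (p : ℝ≥0∞) (_ : Fact (1 ≤ p))
      (f : sphere (0 : EuclideanSpace ℝ (Fin n)) 1 ≃ₜ sphere (0 : PiLp p fun _ : Fin n => ℝ) 1),
      (∀ x x', |dist (f x) (f x') - dist x x'| ≤ δ) ∧
      ∀ T : EuclideanSpace ℝ (Fin n) ≃L[ℝ] PiLp p fun _ : Fin n => ℝ,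
        K ≤ ‖T.toContinuousLinearMap‖ * ‖T.symm.toContinuousLinearMap‖ := by
  have hQ : 0 < (2 : ℝ≥0∞).toReal := by simp
  have h := mazur_almost hQ hδ
  rw [ENNReal.toReal_ofNat] at h
  obtain ⟨p, hp, hp1, hp2⟩ := ((h.filter_mono nhdsWithin_le_nhds).and
    (Ioo_mem_nhdsLT (show (1 : ℝ) < 2 by norm_num))).exists
  have hp0 : 0 < p := by linarith
  have hγ : 0 < 1 / p - 1 / 2 := sub_pos.mpr (one_div_lt_one_div_of_lt hp0 hp2)
  obtain ⟨n, hn, hn1⟩ := ((((tendsto_rpow_atTop hγ).comp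
    tendsto_natCast_atTop_atTop).eventually_ge_atTop K).and (eventually_gt_atTop 0)).exists
  have hF : Fact (1 ≤ ENNReal.ofReal p) := ⟨ENNReal.one_le_ofReal.mpr hp1.le⟩
  have hP : (ENNReal.ofReal p).toReal = p := ENNReal.toReal_ofReal hp0.le
  have hP0 : 0 < (ENNReal.ofReal p).toReal := hP.symm ▸ hp0
  refine ⟨n, ENNReal.ofReal p, hF, mazur hP0 hQ, hp n _ hP0 hP, fun T => hn.trans ?_⟩
  have n0 : (0 : ℝ) < n := by exact_mod_cast hn1
  obtain ⟨σ, hσ, hs⟩ := exists_signs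
    (fun i : Fin n => T.symm (PiLp.single (ENNReal.ofReal p) i (1 : ℝ))) Finset.univ
  set A := ‖T.toContinuousLinearMap‖
  set B := ‖T.symm.toContinuousLinearMap‖ with hB
  have h1 : ‖T.symm (toLp (ENNReal.ofReal p) σ)‖ ≤ B * (n : ℝ) ^ (1 / 2 : ℝ) := by
    refine (pow_le_pow_iff_left₀ (norm_nonneg _) (by positivity) two_ne_zero).mp ?_
    rw [toLp_eq_sum, map_sum]
    simp only [map_smul]
    refine hs.trans ?_
    have e : ((n : ℝ) ^ (1 / 2 : ℝ)) ^ 2 = n := by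
      rw [← Real.sqrt_eq_rpow, Real.sq_sqrt n0.le]
    rw [mul_pow, e]
    calc _ ≤ ∑ _i : Fin n, B ^ 2 := Finset.sum_le_sum fun i _ => pow_le_pow_left₀ (norm_nonneg _)
            (by simpa using T.symm.toContinuousLinearMap.le_opNorm
                              (PiLp.single (ENNReal.ofReal p) i (1 : ℝ))) 2
      _ = _ := by simp [mul_comm]
  have h2 := T.toContinuousLinearMap.le_opNorm (T.symm (toLp (ENNReal.ofReal p) σ))
  rw [ContinuousLinearEquiv.coe_coe, T.apply_symm_apply, norm_toLp_sign hP0 hσ, hP] at h2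
  have h3 : (n : ℝ) ^ (1 / p) ≤ A * B * (n : ℝ) ^ (1 / 2 : ℝ) := by
    rw [mul_assoc]
    exact h2.trans (mul_le_mul_of_nonneg_left h1 (norm_nonneg _))
  rw [Function.comp_apply, Real.rpow_sub n0, div_le_iff₀ (by positivity)]
  exact h3

theorem ellOne_far {δ : ℝ} (hδ : 0 < δ) :
    ∃ (n : ℕ) (p : ℝ≥0∞) (_ : Fact (1 ≤ p))
      (f : sphere (0 : PiLp 1 fun _ : Fin n => ℝ) 1 ≃ₜ sphere (0 : PiLp p fun _ : Fin n => ℝ) 1),
      (∀ x x', |dist (f x) (f x') - dist x x'| ≤ δ) ∧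
      ∀ (Z : Type w) [NormedAddCommGroup Z] [NormedSpace ℝ Z]
        (I : (PiLp 1 fun _ : Fin n => ℝ) →ₗᵢ[ℝ] Z) (J : (PiLp p fun _ : Fin n => ℝ) →ₗᵢ[ℝ] Z),
        ∃ x : sphere (0 : PiLp 1 fun _ : Fin n => ℝ) 1, 1 - δ ≤ ‖I x - J (f x)‖ := by
  have hQ : 0 < (1 : ℝ≥0∞).toReal := by simp
  have h := mazur_almost hQ hδ
  rw [ENNReal.toReal_one] at h
  obtain ⟨p, hp, hp1, -⟩ := ((h.filter_mono nhdsWithin_le_nhds).and
    (Ioo_mem_nhdsGT (show (1 : ℝ) < 2 by norm_num))).exists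
  have hp0 : 0 < p := by linarith
  have hγ : 0 < 1 - 1 / p := sub_pos.mpr ((div_lt_one hp0).mpr hp1)
  obtain ⟨n, hn, hn1⟩ := ((((tendsto_rpow_neg_atTop hγ).comp
    tendsto_natCast_atTop_atTop).eventually (ge_mem_nhds hδ)).and (eventually_gt_atTop 0)).exists
  have hF : Fact (1 ≤ ENNReal.ofReal p) := ⟨ENNReal.one_le_ofReal.mpr hp1.le⟩
  have hP : (ENNReal.ofReal p).toReal = p := ENNReal.toReal_ofReal hp0.le
  have hP0 : 0 < (ENNReal.ofReal p).toReal := hP.symm ▸ hp0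
  refine ⟨n, ENNReal.ofReal p, hF, mazur hP0 hQ, hp n _ hP0 hP, fun Z _ _ I J => ?_⟩
  have n0 : (0 : ℝ) < n := by exact_mod_cast hn1
  by_contra hc
  push Not at hc
  let e : Fin n → sphere (0 : PiLp 1 fun _ : Fin n => ℝ) 1 := fun k =>
    ⟨PiLp.single 1 k (1 : ℝ), by simp⟩
  have he : ∀ k, (mazur hP0 hQ (e k)).1 = PiLp.single (ENNReal.ofReal p) k (1 : ℝ) := fun k => by
    ext i
    rw [mazur_apply, sp_of_nonneg (div_pos hQ hP0)]
    · rcases eq_or_ne i k with rfl | hi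
      · simp [e]
      · simp [e, hi, hp0.ne', hP]
    · rcases eq_or_ne i k with rfl | hi
      · simp [e]
      · simp [e, hi]
  have h1 : ‖I (toLp 1 fun _ => 1) - J (toLp (ENNReal.ofReal p) fun _ => 1)‖ < n * (1 - δ) := by
    have : Nonempty (Fin n) := ⟨⟨0, hn1⟩⟩
    rw [toLp_eq_sum, toLp_eq_sum, map_sum, map_sum, ← Finset.sum_sub_distrib]
    refine (norm_sum_le _ _).trans_lt ?_
    calc _ < ∑ _k : Fin n, (1 - δ) := Finset.sum_lt_sum_of_nonempty Finset.univ_nonempty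
            fun k _ => by simpa only [one_smul, he] using hc (e k)
      _ = _ := by rw [Finset.sum_const, Finset.card_univ, Fintype.card_fin, nsmul_eq_mul]
  have h3 := norm_sub_norm_le (I (toLp 1 fun _ => 1)) (J (toLp (ENNReal.ofReal p) fun _ => 1))
  rw [I.norm_map, J.norm_map, norm_toLp_sign hQ (by simp), norm_toLp_sign hP0 (by simp), hP,
    ENNReal.toReal_one, div_one, Real.rpow_one] at h3
  rw [Function.comp_apply, neg_sub, Real.rpow_sub_one n0.ne', div_le_iff₀ n0] at hn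
  linarith

end Vale.Agent.N084
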