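import Vale.Agent.N084.Defs
import Vale.Agent.N084.BConv
import Vale.Agent.N084.Mazur

/-! Assembly of the statement on the stability of isometries between unit spheres. -/

namespace Vale.Agent.N084

open Metric
open scoped ENNReal

universe u v

theorem main :
    (∀ (X : Type u) [NormedAddCommGroup X] [NormedSpace ℝ X]
      (Y : Type v) [NormedAddCommGroup Y] [NormedSpace ℝ Y]
      (f : sphere (0 : X) 1 → sphere (0 : Y) 1), Isometry f → Function.Surjective f →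
      ∃ T : X ≃ₗᵢ[ℝ] Y, ∀ x : sphere (0 : X) 1, T x = f x) ∧
    (∀ (n : ℕ) (ε : ℝ), 0 < ε → ∃ δ : ℝ, 0 < δ ∧
      ∀ (X : Type u) [NormedAddCommGroup X] [NormedSpace ℝ X] [FiniteDimensional ℝ X]
        (Y : Type v) [NormedAddCommGroup Y] [NormedSpace ℝ Y]
        (f : sphere (0 : X) 1 → sphere (0 : Y) 1), Module.finrank ℝ X ≤ n → AlmostIsometry δ f →
        ∃ T : X ≃L[ℝ] Y, ∀ x : sphere (0 : X) 1, ‖T x - f x‖ ≤ ε) ∧
    (∀ (N : ℕ) (η ε : ℝ), 0 < η → 0 < ε → ∃ δ : ℝ, 0 < δ ∧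
      ∀ (X : Type u) [NormedAddCommGroup X] [NormedSpace ℝ X]
        (Y : Type v) [NormedAddCommGroup Y] [NormedSpace ℝ Y]
        (f : sphere (0 : X) 1 → sphere (0 : Y) 1), BConvex X N η → AlmostIsometry δ f →
        Glued ε f) ∧
    (∀ δ K : ℝ, 0 < δ → ∃ (n : ℕ) (p : ℝ≥0∞) (_ : Fact (1 ≤ p))
      (f : sphere (0 : PiLp 2 fun _ : Fin n => ℝ) 1 → sphere (0 : PiLp p fun _ : Fin n => ℝ) 1),
      Function.Bijective f ∧ AlmostIsometry δ f ∧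
      FarApart K (PiLp 2 fun _ : Fin n => ℝ) (PiLp p fun _ : Fin n => ℝ)) ∧
    (∀ δ : ℝ, 0 < δ → ∃ (n : ℕ) (p : ℝ≥0∞) (_ : Fact (1 ≤ p))
      (f : sphere (0 : PiLp 1 fun _ : Fin n => ℝ) 1 → sphere (0 : PiLp p fun _ : Fin n => ℝ) 1),
      Function.Bijective f ∧ AlmostIsometry δ f ∧ ¬ Glued (1 - δ) f) := by
  refine ⟨fun _ _ _ _ _ _ f hf hs => Vale.Agent.P084.mazurUlam f hf hs, fun n ε hε => ?_,
    fun N η ε hη hε => ?_, fun δ K hδ => ?_, fun δ hδ => ?_⟩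
  · obtain ⟨δ, hδ, h⟩ := Vale.Agent.N084.finDim_stability.{u, v} n ε hε
    exact ⟨δ, hδ, fun X _ _ hX Y _ _ f hn hf => h X Y f hX hn hf.1 hf.2⟩
  · obtain ⟨δ, hδ, h⟩ := Vale.Agent.N084.beck_stability.{u, v} N η ε hη hε
    exact ⟨δ, hδ, fun X _ _ Y _ _ f hB hf => h X Y f hB hf.1 hf.2⟩
  · obtain ⟨n, p, hp, f, h1, h2⟩ := Vale.Agent.N084.euclidean_far hδ K
    exact ⟨n, p, hp, f, f.bijective, ⟨h1, fun y => ⟨f.symm y, by simpa using hδ.le⟩⟩, h2⟩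
  · obtain ⟨n, p, hp, f, h1, h2⟩ := Vale.Agent.N084.ellOne_far.{0} (half_pos hδ)
    refine ⟨n, p, hp, f, f.bijective, ⟨fun x x' => (h1 x x').trans (half_le_self hδ.le),
      fun y => ⟨f.symm y, by simpa using hδ.le⟩⟩, ?_⟩
    rintro ⟨Z, _, _, I, J, h⟩
    obtain ⟨x, hx⟩ := h2 Z I J
    linarith [h x]

end Vale.Agent.N084
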